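import Mathlib
import Vale.Agent.Lib.P058.Defs

/-!
# P058 pool job J5a (second copy, helper11): the dihedral orbit is homogeneous

Rotations by `n`-th roots of unity and their composites with complex conjugation are linear
isometries of the plane that preserve the orbit `Dorb n a` and act transitively on it.
-/

namespace Vale.Agent.Lib.P058.H11

open Vale.Agent.Lib.P058

theorem norm_eq_one_of_pow {n : ℕ} (hn : 0 < n) {z : ℂ} (hz : z ^ n = 1) : ‖z‖ = 1 := by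
  have h : ‖z‖ ^ n = 1 := by rw [← norm_pow, hz, norm_one]
  exact (pow_eq_one_iff_of_nonneg (norm_nonneg z) hn.ne').1 h

theorem mul_conj_eq_one {z : ℂ} (hz : ‖z‖ = 1) : z * (starRingEnd ℂ) z = 1 := by
  rw [Complex.mul_conj, Complex.normSq_eq_norm_sq, hz]; simp

theorem ne_zero_of_norm {z : ℂ} (hz : ‖z‖ = 1) : z ≠ 0 := by
  intro h; rw [h, norm_zero] at hz; exact zero_ne_one hz

/-- Multiplication by a root of unity keeps the orbit. -/
theorem mul_mem {n : ℕ} {a z w : ℂ} (hz : z ^ n = 1) (hw : w ∈ Dorb n a) :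
    z * w ∈ Dorb n a := by
  obtain ⟨y, hy, h | h⟩ := hw
  · exact ⟨z * y, by rw [mul_pow, hz, hy, one_mul], Or.inl (by rw [h, mul_assoc])⟩
  · exact ⟨z * y, by rw [mul_pow, hz, hy, one_mul], Or.inr (by rw [h, mul_assoc])⟩

/-- Conjugation followed by multiplication by a root of unity keeps the orbit. -/
theorem mul_conj_mem {n : ℕ} {a z w : ℂ} (hz : z ^ n = 1) (hw : w ∈ Dorb n a) :
    z * (starRingEnd ℂ) w ∈ Dorb n a := by
  obtain ⟨y, hy, h | h⟩ := hw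
  · refine ⟨z * (starRingEnd ℂ) y, ?_, Or.inr ?_⟩
    · rw [mul_pow, hz, ← map_pow, hy, map_one, one_mul]
    · rw [h, map_mul, mul_assoc]
  · refine ⟨z * (starRingEnd ℂ) y, ?_, Or.inl ?_⟩
    · rw [mul_pow, hz, ← map_pow, hy, map_one, one_mul]
    · rw [h, map_mul, Complex.conj_conj, mul_assoc]

/-- A complex number of norm one as a point of the unit circle. -/
noncomputable def circ (z : ℂ) (hz : ‖z‖ = 1) : Circle := ⟨z, mem_sphere_zero_iff_norm.2 hz⟩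

theorem rot_spec (n : ℕ) (a : ℂ) {z : ℂ} (hz : z ^ n = 1) (hz1 : ‖z‖ = 1) :
    ∃ σ : ℂ ≃ₗᵢ[ℝ] ℂ, (∀ w, σ w = z * w) ∧ (∀ w ∈ Dorb n a, σ w ∈ Dorb n a) ∧
      (∀ w ∈ Dorb n a, σ.symm w ∈ Dorb n a) := by
  have key : ∀ w, rotation (circ z hz1) w = z * w := by
    intro w
    rw [rotation_apply]; rfl
  refine ⟨rotation (circ z hz1), key, fun w hw => ?_, fun w hw => ?_⟩
  · rw [key]; exact mul_mem hz hw
  · have h0 := ne_zero_of_norm hz1
    have hinv : (z⁻¹) ^ n = 1 := by rw [inv_pow, hz, inv_one]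
    have h1 : (rotation (circ z hz1)).symm w = z⁻¹ * w := by
      rw [LinearIsometryEquiv.symm_apply_eq, key, ← mul_assoc, mul_inv_cancel₀ h0, one_mul]
    rw [h1]; exact mul_mem hinv hw

theorem refl_spec (n : ℕ) (a : ℂ) {z : ℂ} (hz : z ^ n = 1) (hz1 : ‖z‖ = 1) :
    ∃ σ : ℂ ≃ₗᵢ[ℝ] ℂ, (∀ w, σ w = z * (starRingEnd ℂ) w) ∧
      (∀ w ∈ Dorb n a, σ w ∈ Dorb n a) ∧ (∀ w ∈ Dorb n a, σ.symm w ∈ Dorb n a) := by
  have key : ∀ w, (Complex.conjLIE.trans (rotation (circ z hz1))) w =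
      z * (starRingEnd ℂ) w := by
    intro w
    rw [LinearIsometryEquiv.trans_apply, rotation_apply, Complex.conjLIE_apply]; rfl
  refine ⟨Complex.conjLIE.trans (rotation (circ z hz1)), key, fun w hw => ?_, fun w hw => ?_⟩
  · rw [key]; exact mul_conj_mem hz hw
  · have h1 : (Complex.conjLIE.trans (rotation (circ z hz1))).symm w =
        z * (starRingEnd ℂ) w := by
      rw [LinearIsometryEquiv.symm_apply_eq, key, map_mul, Complex.conj_conj, ← mul_assoc,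
        mul_conj_eq_one hz1, one_mul]
    rw [h1]; exact mul_conj_mem hz hw

theorem Dorb_trans (n : ℕ) (hn : 0 < n) (a : ℂ) {u v : ℂ} (hu : u ∈ Dorb n a)
    (hv : v ∈ Dorb n a) :
    ∃ σ : ℂ ≃ₗᵢ[ℝ] ℂ, σ u = v ∧ (∀ w ∈ Dorb n a, σ w ∈ Dorb n a) ∧
      (∀ w ∈ Dorb n a, σ.symm w ∈ Dorb n a) := by
  obtain ⟨y, hy, hu'⟩ := hu
  obtain ⟨y', hy', hv'⟩ := hv
  have hy1 := norm_eq_one_of_pow hn hy
  have hy0 := ne_zero_of_norm hy1
  have hR : (y' * y⁻¹) ^ n = 1 := by rw [mul_pow, inv_pow, hy, hy', inv_one, one_mul]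
  have hS : (y' * y) ^ n = 1 := by rw [mul_pow, hy, hy', one_mul]
  have hR1 := norm_eq_one_of_pow hn hR
  have hS1 := norm_eq_one_of_pow hn hS
  have hyc := mul_conj_eq_one hy1
  rcases hu' with hu' | hu' <;> rcases hv' with hv' | hv'
  · obtain ⟨σ, h1, h2, h3⟩ := rot_spec n a hR hR1
    refine ⟨σ, ?_, h2, h3⟩
    rw [h1, hu', hv']
    calc y' * y⁻¹ * (y * a) = y' * (y⁻¹ * y) * a := by ring
      _ = y' * a := by rw [inv_mul_cancel₀ hy0, mul_one]
  · obtain ⟨σ, h1, h2, h3⟩ := refl_spec n a hS hS1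
    refine ⟨σ, ?_, h2, h3⟩
    rw [h1, hu', hv', map_mul]
    calc y' * y * ((starRingEnd ℂ) y * (starRingEnd ℂ) a)
        = y' * (y * (starRingEnd ℂ) y) * (starRingEnd ℂ) a := by ring
      _ = y' * (starRingEnd ℂ) a := by rw [hyc, mul_one]
  · obtain ⟨σ, h1, h2, h3⟩ := refl_spec n a hS hS1
    refine ⟨σ, ?_, h2, h3⟩
    rw [h1, hu', hv', map_mul, Complex.conj_conj]
    calc y' * y * ((starRingEnd ℂ) y * a) = y' * (y * (starRingEnd ℂ) y) * a := by ring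
      _ = y' * a := by rw [hyc, mul_one]
  · obtain ⟨σ, h1, h2, h3⟩ := rot_spec n a hR hR1
    refine ⟨σ, ?_, h2, h3⟩
    rw [h1, hu', hv']
    calc y' * y⁻¹ * (y * (starRingEnd ℂ) a) = y' * (y⁻¹ * y) * (starRingEnd ℂ) a := by ring
      _ = y' * (starRingEnd ℂ) a := by rw [inv_mul_cancel₀ hy0, mul_one]

end Vale.Agent.Lib.P058.H11
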